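import Mathlib

/-!
# A parity lemma for permutations commuting with a free involution

`σ` = next arc along a family of closed polygons, `α` = the antipodal map, `s x` = the sign of a linear
form at the initial vertex of the arc `x`.  The arc `x` meets the great circle (kernel of the form)
iff `s x ≠ s (σ x)`.  If the number of such arcs is not divisible by four then some closed polygon is
mapped to itself by `α`.
-/

namespace Vale.Agent.P040.Sph72

open Finset

open scoped Classical

variable {X : Type*} [Fintype X]

/-- the least code of a point of the cycle of `x` -/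
noncomputable def mcode (σ : Equiv.Perm X) (x : X) : ℕ :=
  (univ.filter fun y => σ.SameCycle x y).inf'
    ⟨x, mem_filter.2 ⟨mem_univ _, Equiv.Perm.SameCycle.refl σ x⟩⟩ fun y => (Fintype.equivFin X y).val

lemma mcode_congr (σ : Equiv.Perm X) {x y : X} (h : σ.SameCycle x y) : mcode σ x = mcode σ y := by
  unfold mcode
  have : (univ.filter fun z => σ.SameCycle x z) = univ.filter fun z => σ.SameCycle y z := by
    ext z
    simp only [mem_filter, mem_univ, true_and]
    exact ⟨fun hz => h.symm.trans hz, fun hz => h.trans hz⟩
  simp only [this]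

lemma sameCycle_of_mcode_eq (σ : Equiv.Perm X) {x y : X} (h : mcode σ x = mcode σ y) :
    σ.SameCycle x y := by
  obtain ⟨a, ha, hax⟩ := Finset.exists_mem_eq_inf' (s := univ.filter fun z => σ.SameCycle x z)
    ⟨x, mem_filter.2 ⟨mem_univ _, Equiv.Perm.SameCycle.refl σ x⟩⟩ fun z => (Fintype.equivFin X z).val
  obtain ⟨b, hb, hby⟩ := Finset.exists_mem_eq_inf' (s := univ.filter fun z => σ.SameCycle y z)
    ⟨y, mem_filter.2 ⟨mem_univ _, Equiv.Perm.SameCycle.refl σ y⟩⟩ fun z => (Fintype.equivFin X z).val
  have hab : a = b := by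
    have h1 : ((Fintype.equivFin X a).val : ℕ) = (Fintype.equivFin X b).val := by
      rw [← hax, ← hby]; exact h
    exact (Fintype.equivFin X).injective (Fin.ext h1)
  simp only [mem_filter, mem_univ, true_and] at ha hb
  exact ha.trans (hab ▸ hb.symm)

/-- **Parity lemma.** -/
theorem exists_sameCycle_antipode (σ α : Equiv.Perm X) (hcomm : ∀ x, α (σ x) = σ (α x))
    (hinv : ∀ x, α (α x) = x) (s : X → Bool) (hs : ∀ x, s (α x) = !s x)
    (h4 : ¬ 4 ∣ (univ.filter fun x => s x ≠ s (σ x)).card) : ∃ x, σ.SameCycle x (α x) := by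
  by_contra hno
  push Not at hno
  -- the selector
  obtain ⟨lam, hlσ, hlα⟩ : ∃ lam : X → Prop, (∀ x, lam (σ x) ↔ lam x) ∧
      (∀ x, lam (α x) ↔ ¬ lam x) := by
    refine ⟨fun x => mcode σ x < mcode σ (α x), ?_, ?_⟩
    · intro x
      have h1 : mcode σ (σ x) = mcode σ x :=
        mcode_congr σ ((Equiv.Perm.sameCycle_apply_left).2 (Equiv.Perm.SameCycle.refl σ x))
      have h2 : mcode σ (α (σ x)) = mcode σ (α x) := by
        rw [hcomm]
        exact mcode_congr σ ((Equiv.Perm.sameCycle_apply_left).2 (Equiv.Perm.SameCycle.refl σ _))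
      simp only [h1, h2]
    · intro x
      have hne : mcode σ x ≠ mcode σ (α x) := fun h => hno x (sameCycle_of_mcode_eq σ h)
      simp only [hinv]
      omega
  have hcα : ∀ x, (s (α x) ≠ s (σ (α x))) ↔ (s x ≠ s (σ x)) := by
    intro x
    rw [← hcomm, hs, hs]
    cases s x <;> cases s (σ x) <;> simp
  -- split the count
  set C := univ.filter fun x => s x ≠ s (σ x) with hC
  have hsplit : C.card = (C.filter lam).card + (C.filter fun x => ¬ lam x).card :=
    (Finset.card_filter_add_card_filter_not (s := C) lam).symm
  have heq : (C.filter fun x => ¬ lam x).card = (C.filter lam).card := by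
    apply Finset.card_bij (fun x _ => α x)
    · intro x hx
      simp only [hC, mem_filter, mem_univ, true_and] at hx ⊢
      exact ⟨(hcα x).2 hx.1, (hlα x).2 hx.2⟩
    · intro x _ y _ hxy
      exact α.injective hxy
    · intro y hy
      simp only [hC, mem_filter, mem_univ, true_and] at hy
      refine ⟨α y, ?_, hinv y⟩
      simp only [hC, mem_filter, mem_univ, true_and]
      exact ⟨(hcα y).2 hy.1, fun h => ((hlα y).1 h) hy.2⟩
  -- the selected part is even
  have heven : Even (C.filter lam).card := by
    have hz : ((C.filter lam).card : ZMod 2) = 0 := by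
      have e1 : ((C.filter lam).card : ZMod 2) =
          ∑ x, (if lam x then ((if s x then 1 else 0 : ZMod 2) + (if s (σ x) then 1 else 0)) else 0) := by
        rw [Finset.card_eq_sum_ones, Nat.cast_sum, Finset.sum_filter, hC, Finset.sum_filter]
        refine Finset.sum_congr rfl fun x _ => ?_
        have h11 : (1 : ZMod 2) + 1 = 0 := CharTwo.add_self_eq_zero 1
        by_cases hl : lam x
        · cases hx : s x <;> cases hy : s (σ x) <;> simp [hl, h11]
        · cases hx : s x <;> cases hy : s (σ x) <;> simp [hl]
      have e2 : ∑ x, (if lam x then ((if s x then 1 else 0 : ZMod 2) + (if s (σ x) then 1 else 0)) else 0)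
          = ∑ x, (if lam x then (if s x then 1 else 0 : ZMod 2) else 0) +
            ∑ x, (if lam (σ x) then (if s (σ x) then 1 else 0 : ZMod 2) else 0) := by
        rw [← Finset.sum_add_distrib]
        refine Finset.sum_congr rfl fun x _ => ?_
        by_cases hl : lam x
        · simp [hl, (hlσ x).2 hl]
        · have hl' : ¬ lam (σ x) := fun h => hl ((hlσ x).1 h)
          rw [if_neg hl, if_neg hl, if_neg hl', add_zero]
      have e3 : ∑ x, (if lam (σ x) then (if s (σ x) then 1 else 0 : ZMod 2) else 0) =
          ∑ x, (if lam x then (if s x then 1 else 0 : ZMod 2) else 0) :=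
        Equiv.sum_comp σ fun x => (if lam x then (if s x then 1 else 0 : ZMod 2) else 0)
      rw [e1, e2, e3]
      exact CharTwo.add_self_eq_zero _
    exact (ZMod.natCast_eq_zero_iff_even).1 hz
  obtain ⟨r, hr⟩ := heven
  apply h4
  rw [hsplit, heq, hr]
  exact ⟨r, by ring⟩

end Vale.Agent.P040.Sph72
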